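import Vale.Agent.P129R.Main3

namespace Vale.Agent.Results.P129.FreeSet

open MeasureTheory

universe u v

theorem result
    (hF : ∀ N : Finset ℝ → Set ℝ, (∀ F, volume (N F) = 0) →
      ∃ Z : Set ℝ, Z.Infinite ∧ ∀ F : Finset ℝ, (F : Set ℝ) ⊆ Z → ∀ z ∈ Z, z ∉ F → z ∉ N F)
    (𝕜 : Type v) [RCLike 𝕜] (X : Type u) [NormedAddCommGroup X] [NormedSpace 𝕜 X]
    [CompleteSpace X] (hX : ¬ FiniteDimensional 𝕜 X) :
    ∃ M : Submodule 𝕜 X, IsClosed (M : Set X) ∧ TopologicalSpace.SeparableSpace (X ⧸ M) ∧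
      ¬ FiniteDimensional 𝕜 (X ⧸ M) :=
  Vale.Agent.P129R.sq_of_free hF hX

end Vale.Agent.Results.P129.FreeSet
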